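import Vale.Agent.P038.Defs

/-!
# P038 (helper218): the boundary inequality (G) for an arc-minimal counterexample, unweighted
(294's argument, note 20944)
-/

namespace Vale.Agent.P038.H218

open Finset
open scoped Classical

variable {V : Type*} [Fintype V]

/-- `z = z'` or `z → z'`. -/
def ad (D : OGraph V) (z z' : V) : Prop := z = z' ∨ D.arc z z'

/-- closed out-neighbourhood of a set -/
noncomputable def cl (D : OGraph V) (S : Finset V) : Finset V :=
  univ.filter fun u => ∃ x ∈ S, ad D x u

theorem mem_cl {D : OGraph V} {S : Finset V} {u : V} :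
    u ∈ cl D S ↔ ∃ x ∈ S, ad D x u := by simp [cl]

theorem subset_cl (D : OGraph V) (S : Finset V) : S ⊆ cl D S := fun u hu =>
  mem_cl.2 ⟨u, hu, Or.inl rfl⟩

theorem cl_mono {D : OGraph V} {S T : Finset V} (h : S ⊆ T) : cl D S ⊆ cl D T := by
  intro u hu
  obtain ⟨x, hx, hxu⟩ := mem_cl.1 hu
  exact mem_cl.2 ⟨x, h hx, hxu⟩

theorem cl_union (D : OGraph V) (S T : Finset V) : cl D (S ∪ T) = cl D S ∪ cl D T := by
  ext u
  simp only [mem_cl, mem_union]
  constructor
  · rintro ⟨x, hx | hx, hu⟩
    · exact Or.inl ⟨x, hx, hu⟩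
    · exact Or.inr ⟨x, hx, hu⟩
  · rintro (⟨x, hx, hu⟩ | ⟨x, hx, hu⟩)
    · exact ⟨x, Or.inl hx, hu⟩
    · exact ⟨x, Or.inr hx, hu⟩

/-- the size of the boundary -/
noncomputable def bd (D : OGraph V) (S : Finset V) : ℤ := ((cl D S).card : ℤ) - S.card

theorem bd_eq (D : OGraph V) (S : Finset V) : bd D S = ((cl D S \ S).card : ℤ) := by
  rw [bd, card_sdiff_of_subset (subset_cl D S), Nat.cast_sub (card_le_card (subset_cl D S))]

theorem bd_nonneg (D : OGraph V) (S : Finset V) : 0 ≤ bd D S := by
  rw [bd_eq]; positivity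

theorem bd_sub (D : OGraph V) (X Y : Finset V) :
    bd D (X ∪ Y) + bd D (X ∩ Y) ≤ bd D X + bd D Y := by
  have h1 := card_union_add_card_inter X Y
  have h2 := card_union_add_card_inter (cl D X) (cl D Y)
  have h3 : (cl D (X ∩ Y)).card ≤ (cl D X ∩ cl D Y).card :=
    card_le_card (subset_inter (cl_mono inter_subset_left) (cl_mono inter_subset_right))
  rw [← cl_union] at h2
  simp only [bd]
  zify at h1 h2 h3
  linarith

/-- A counterexample, in terms of boundaries. -/
def Bad (D : OGraph V) : Prop := ∀ v, bd D (cl D {v}) < bd D {v}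

/-- number of arcs -/
noncomputable def numArcs (D : OGraph V) : ℕ :=
  (univ.filter fun p : V × V => D.arc p.1 p.2).card

/-- Arc-minimal counterexample. -/
def MinBad (D : OGraph V) : Prop := Bad D ∧ ∀ D' : OGraph V, Bad D' → numArcs D ≤ numArcs D'

theorem exists_minBad {D : OGraph V} (h : Bad D) : ∃ D' : OGraph V, MinBad D' := by
  have hne : ∃ n, ∃ D' : OGraph V, Bad D' ∧ numArcs D' = n := ⟨_, D, h, rfl⟩
  obtain ⟨D', h1, h2⟩ := Nat.find_spec hne
  exact ⟨D', h1, fun D'' h'' => by
    rw [h2]
    exact Nat.find_min' hne ⟨D'', h'', rfl⟩⟩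

/-- Delete all arcs from `X` to `Z`. -/
def del (D : OGraph V) (X Z : Finset V) : OGraph V where
  arc a b := D.arc a b ∧ ¬ (a ∈ X ∧ b ∈ Z)
  loopless v h := D.loopless v h.1
  asymm _ _ h h' := D.asymm _ _ h.1 h'.1

theorem cl_del_subset (D : OGraph V) (X Z S : Finset V) : cl (del D X Z) S ⊆ cl D S := by
  intro u hu
  obtain ⟨x, hx, h | h⟩ := mem_cl.1 hu
  · exact mem_cl.2 ⟨x, hx, Or.inl h⟩
  · exact mem_cl.2 ⟨x, hx, Or.inr h.1⟩

theorem G {D : OGraph V} (hD : MinBad D) (X : Finset V) (hX : cl D X ≠ X) :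
    bd D (cl D X) < bd D X := by
  set L := cl D X \ X with hL
  have hLne : L ≠ ∅ := by
    intro h
    rw [hL, sdiff_eq_empty_iff_subset] at h
    exact hX (Subset.antisymm h (subset_cl D X))
  set d : Finset V → ℤ := fun T => ((cl D T \ X).card : ℤ) - 2 * T.card with hd
  -- enough: `d L < 0`
  have e1 : cl D (cl D X) = X ∪ cl D L := by
    have : cl D X = X ∪ L := by
      rw [hL, union_sdiff_of_subset (subset_cl D X)]
    rw [this, cl_union, this]
    rw [union_assoc, union_eq_right.2 (subset_cl D L)]
  have e2 : ((cl D (cl D X)).card : ℤ) = X.card + ((cl D L \ X).card : ℤ) := by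
    rw [e1, ← union_sdiff_self_eq_union, card_union_of_disjoint disjoint_sdiff]
    push_cast
    ring
  have e3 : ((cl D X).card : ℤ) = X.card + (L.card : ℤ) := by
    rw [hL, card_sdiff_of_subset (subset_cl D X), Nat.cast_sub (card_le_card (subset_cl D X))]
    ring
  have hgoal : d L < 0 → bd D (cl D X) < bd D X := by
    intro h
    simp only [hd] at h
    rw [bd, bd, e2, e3]
    linarith
  apply hgoal
  by_contra hcon
  push Not at hcon
  have hd0 : d ∅ = 0 := by
    have : cl D (∅ : Finset V) = ∅ := by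
      rw [eq_empty_iff_forall_notMem]
      intro z hz
      rw [mem_cl] at hz
      simp at hz
    simp [hd, this]
  -- a minimiser different from `L`
  obtain ⟨T, hTL, hTne, hmin⟩ : ∃ T, T ⊆ L ∧ T ≠ L ∧ ∀ K, K ⊆ L → d T ≤ d K := by
    obtain ⟨T0, hT0, hT0min⟩ := exists_min_image L.powerset d ⟨∅, empty_mem_powerset _⟩
    by_cases h : T0 = L
    · refine ⟨∅, empty_subset _, hLne.symm, fun K hK => ?_⟩
      have := hT0min K (mem_powerset.2 hK)
      rw [h] at this
      linarith
    · exact ⟨T0, mem_powerset.1 hT0, h, fun K hK => hT0min K (mem_powerset.2 hK)⟩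
  set Z := L \ T with hZ
  have hZX : ∀ z ∈ Z, z ∉ X := fun z hz => (mem_sdiff.1 (mem_sdiff.1 hz).1).2
  set D' := del D X Z with hD'
  have hbad : Bad D' := by
    intro v
    by_cases hv : v ∈ X
    · -- `v ∈ X`
      set K := cl D {v} ∩ Z with hK
      have f1 : cl D' {v} = cl D {v} \ K := by
        ext u
        simp only [hK, mem_sdiff, mem_inter, mem_cl, mem_singleton, exists_eq_left, ad]
        constructor
        · rintro (rfl | ⟨h1, h2⟩)
          · exact ⟨Or.inl rfl, fun h => hZX _ h.2 hv⟩
          · exact ⟨Or.inr h1, fun h => h2 ⟨hv, h.2⟩⟩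
        · rintro ⟨rfl | h1, h2⟩
          · exact Or.inl rfl
          · exact Or.inr ⟨h1, fun h => h2 ⟨Or.inr h1, h.2⟩⟩
      have f2 : ((cl D' {v}).card : ℤ) = (cl D {v}).card - K.card := by
        rw [f1, card_sdiff_of_subset inter_subset_left,
          Nat.cast_sub (card_le_card inter_subset_left)]
      have f3 : cl D' (cl D' {v}) ⊆ cl D (cl D {v}) \ (cl D K \ (X ∪ cl D T)) := by
        intro u hu
        rw [mem_sdiff]
        refine ⟨?_, ?_⟩
        · exact cl_mono (cl_del_subset D X Z {v}) (cl_del_subset D X Z _ hu)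
        · intro h
          apply (mem_sdiff.1 h).2
          obtain ⟨y, hy, hyu⟩ := mem_cl.1 hu
          rw [f1, mem_sdiff] at hy
          have hyZ : y ∉ Z := fun h => hy.2 (mem_inter.2 ⟨hy.1, h⟩)
          have hyX : y ∈ cl D X := cl_mono (singleton_subset_iff.2 hv) hy.1
          by_cases hyX' : y ∈ X
          · rcases hyu with rfl | ⟨h1, h2⟩
            · exact mem_union_left _ hyX'
            · by_cases hu' : u ∈ X
              · exact mem_union_left _ hu'
              · have huL : u ∈ L := mem_sdiff.2 ⟨mem_cl.2 ⟨y, hyX', Or.inr h1⟩, hu'⟩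
                have huT : u ∈ T := by
                  by_contra h3
                  exact h2 ⟨hyX', mem_sdiff.2 ⟨huL, h3⟩⟩
                exact mem_union_right _ (subset_cl D T huT)
          · have hyT : y ∈ T := by
              by_contra h3
              exact hyZ (mem_sdiff.2 ⟨mem_sdiff.2 ⟨hyX, hyX'⟩, h3⟩)
            refine mem_union_right _ (mem_cl.2 ⟨y, hyT, ?_⟩)
            rcases hyu with h1 | h1
            · exact Or.inl h1
            · exact Or.inr h1.1
      have f4 : ((cl D' (cl D' {v})).card : ℤ) ≤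
          (cl D (cl D {v})).card - (cl D K \ (X ∪ cl D T)).card := by
        have g1 := card_le_card f3
        have g2 : cl D K \ (X ∪ cl D T) ⊆ cl D (cl D {v}) :=
          sdiff_subset.trans (cl_mono inter_subset_left)
        rw [card_sdiff_of_subset g2] at g1
        have g3 := card_le_card g2
        zify [g3] at g1
        exact g1
      have hKL : K ⊆ L := inter_subset_right.trans sdiff_subset
      have f5 := hmin (T ∪ K) (union_subset hTL hKL)
      have hTK : Disjoint T K := by
        rw [disjoint_left]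
        intro z hz hz'
        exact (mem_sdiff.1 (mem_inter.1 hz').2).2 hz
      have f6 : ((cl D (T ∪ K) \ X).card : ℤ) =
          (cl D T \ X).card + (cl D K \ (X ∪ cl D T)).card := by
        have g1 : cl D (T ∪ K) \ X = (cl D T \ X) ∪ (cl D K \ (X ∪ cl D T)) := by
          rw [cl_union]
          ext u
          simp only [mem_sdiff, mem_union]
          tauto
        rw [g1, card_union_of_disjoint]
        · push_cast; ring
        · rw [disjoint_left]
          intro u hu hu'
          exact (mem_sdiff.1 hu').2 (mem_union_right _ (mem_sdiff.1 hu).1)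
      simp only [hd] at f5
      rw [f6, card_union_of_disjoint hTK] at f5
      push_cast at f5
      have f7 := hD.1 v
      simp only [bd, card_singleton] at f7 ⊢
      rw [f2]
      push_cast at f7 ⊢
      linarith
    · -- `v ∉ X`
      have f1 : cl D' {v} = cl D {v} := by
        ext u
        simp only [mem_cl, mem_singleton, exists_eq_left, ad]
        constructor
        · rintro (rfl | ⟨h1, h2⟩)
          · exact Or.inl rfl
          · exact Or.inr h1
        · rintro (rfl | h1)
          · exact Or.inl rfl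
          · exact Or.inr ⟨h1, fun h => hv h.1⟩
      have f2 := hD.1 v
      have f3 : ((cl D' (cl D {v})).card : ℤ) ≤ (cl D (cl D {v})).card := by
        exact_mod_cast card_le_card (cl_del_subset D X Z _)
      simp only [bd] at f2 ⊢
      rw [f1]
      linarith
  -- fewer arcs
  have hZne : Z.Nonempty := by
    rw [nonempty_iff_ne_empty]
    intro h
    rw [hZ, sdiff_eq_empty_iff_subset] at h
    exact hTne (Subset.antisymm hTL h)
  obtain ⟨z, hz⟩ := hZne
  have hzL : z ∈ L := (mem_sdiff.1 hz).1
  obtain ⟨y, hy, hyz⟩ := mem_cl.1 (mem_sdiff.1 hzL).1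
  have hyz' : D.arc y z := by
    rcases hyz with rfl | h
    · exact absurd hy (mem_sdiff.1 hzL).2
    · exact h
  have hlt : numArcs D' < numArcs D := by
    apply card_lt_card
    rw [ssubset_iff_of_subset]
    · refine ⟨(y, z), ?_, ?_⟩
      · simp [hyz']
      · simp only [mem_filter, mem_univ, true_and]
        exact fun h => h.2 ⟨hy, hz⟩
    · intro p hp
      simp only [mem_filter, mem_univ, true_and] at hp ⊢
      exact hp.1
  exact absurd (hD.2 D' hbad) (not_le.2 hlt)

theorem bd_singleton (D : OGraph V) (v : V) : bd D {v} = ((N1 D v).card : ℤ) := by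
  rw [bd_eq]
  congr 2
  ext u
  simp only [mem_sdiff, mem_cl, mem_singleton, exists_eq_left, ad, mem_N1]
  constructor
  · rintro ⟨rfl | h, h'⟩
    · exact absurd rfl h'
    · exact h
  · intro h
    refine ⟨Or.inr h, ?_⟩
    rintro rfl
    exact D.loopless _ h

theorem bd_cl_singleton (D : OGraph V) (v : V) : bd D (cl D {v}) = ((N2 D v).card : ℤ) := by
  rw [bd_eq]
  congr 2
  ext u
  simp only [mem_sdiff, mem_cl, mem_singleton, exists_eq_left, ad, mem_N2]
  constructor
  · rintro ⟨⟨x, rfl | h1, rfl | h2⟩, h3⟩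
    · exact absurd (Or.inl rfl) h3
    · exact absurd (Or.inr h2) h3
    · exact absurd (Or.inr h1) h3
    · push Not at h3
      exact ⟨fun h => h3.1 h.symm, h3.2, x, h1, h2⟩
  · rintro ⟨h1, h2, x, h3, h4⟩
    refine ⟨⟨x, Or.inr h3, Or.inr h4⟩, ?_⟩
    rintro (h | h)
    · exact h1 h.symm
    · exact h2 h

theorem bad_of {D : OGraph V} (h : ∀ v, (N2 D v).card < (N1 D v).card) : Bad D := by
  intro v
  rw [bd_cl_singleton, bd_singleton]
  exact_mod_cast h v

end Vale.Agent.P038.H218
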