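import Vale.Agent.P038.H218.Star
import Vale.Agent.P038.H218.G

/-!
# P038 (helper218): Seymour's second neighbourhood conjecture
(411's note 22877: minimal admissible pair, the inequality `star`, the shift)
-/

namespace Vale.Agent.P038.H218

open Finset
open scoped Classical

variable {V : Type*} [Fintype V]

/-- Admissible pairs of families. -/
structure Adm (D : OGraph V) (U Z : V → Finset V) : Prop where
  sub : ∀ a, U a ⊆ Z a
  refl : ∀ a b, ad D a b → b ∈ U a
  rev : ∀ z y, y ∈ Z z → ¬ D.arc y z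

/-- the cost of a pair -/
noncomputable def oc (D : OGraph V) (U Z : V → Finset V) : ℤ :=
  ∑ a, bd D (U a) + ∑ a, (((Z a).card : ℤ) - (er (ad D) Z a).card)

theorem exists_min_adm (D : OGraph V) :
    ∃ U Z, Adm D U Z ∧ ∀ U' Z', Adm D U' Z' → oc D U Z ≤ oc D U' Z' := by
  have hne : ((univ : Finset ((V → Finset V) × (V → Finset V))).filter
      fun p => Adm D p.1 p.2).Nonempty := by
    refine ⟨(fun a => cl D {a}, fun a => cl D {a}), mem_filter.2 ⟨mem_univ _, ?_⟩⟩
    refine ⟨fun a => Subset.refl _, fun a b h => mem_cl.2 ⟨a, mem_singleton_self a, h⟩, ?_⟩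
    intro z y hy h
    obtain ⟨x, hx, hxy⟩ := mem_cl.1 hy
    rw [mem_singleton] at hx
    subst hx
    rcases hxy with rfl | h'
    · exact D.loopless _ h
    · exact D.asymm _ _ h' h
  obtain ⟨p, hp, hmin⟩ := exists_min_image _ (fun p => oc D p.1 p.2) hne
  exact ⟨p.1, p.2, (mem_filter.1 hp).2, fun U' Z' h =>
    hmin (U', Z') (mem_filter.2 ⟨mem_univ _, h⟩)⟩

theorem row_min {D : OGraph V} {U Z : V → Finset V} (h : Adm D U Z)
    (hmin : ∀ U' Z', Adm D U' Z' → oc D U Z ≤ oc D U' Z') (a : V) (S : Finset V)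
    (h1 : U a ⊆ S) (h2 : S ⊆ Z a) : bd D (U a) ≤ bd D S := by
  have hadm : Adm D (Function.update U a S) Z := by
    refine ⟨?_, ?_, h.rev⟩
    · intro x
      by_cases hx : x = a
      · subst hx
        rw [Function.update_self]
        exact h2
      · rw [Function.update_of_ne hx]
        exact h.sub x
    · intro x b hxb
      by_cases hx : x = a
      · subst hx
        rw [Function.update_self]
        exact h1 (h.refl _ _ hxb)
      · rw [Function.update_of_ne hx]
        exact h.refl x b hxb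
  have hm := hmin _ _ hadm
  have e : ∑ x, (bd D (Function.update U a S x) - bd D (U x)) = bd D S - bd D (U a) := by
    rw [sum_eq_single a]
    · rw [Function.update_self]
    · intro x _ hx
      rw [Function.update_of_ne hx, sub_self]
    · intro hx
      exact absurd (mem_univ a) hx
  rw [sum_sub_distrib] at e
  simp only [oc] at hm
  linarith

theorem col_min {D : OGraph V} {U Z : V → Finset V} (h : Adm D U Z)
    (hmin : ∀ U' Z', Adm D U' Z' → oc D U Z ≤ oc D U' Z') (b : V) (S : Finset V)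
    (hS : ∀ z ∈ S, b ∈ Z z ∧ b ∉ U z) :
    S.card ≤ (univ.filter fun z' => b ∈ er (ad D) Z z' ∧ ∃ z ∈ S, ad D z z').card := by
  set Z' : V → Finset V := fun z => if z ∈ S then (Z z).erase b else Z z with hZ'
  have hsub : ∀ z, Z' z ⊆ Z z := by
    intro z
    simp only [hZ']
    split_ifs
    · exact erase_subset _ _
    · exact Subset.refl _
  have hadm : Adm D U Z' := by
    refine ⟨?_, h.refl, fun z y hy => h.rev z y (hsub z hy)⟩
    intro z
    simp only [hZ']
    split_ifs with hz
    · exact subset_erase.2 ⟨h.sub z, (hS z hz).2⟩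
    · exact h.sub z
  have hm := hmin _ _ hadm
  have e1 : ∀ z, ((Z' z).card : ℤ) = (Z z).card - (if z ∈ S then 1 else 0) := by
    intro z
    simp only [hZ']
    split_ifs with hz
    · have hb := (hS z hz).1
      have := card_erase_add_one hb
      zify at this
      linarith
    · ring
  have e2 : ∀ z', er (ad D) Z' z' =
      if (∃ z ∈ S, ad D z z') then (er (ad D) Z z').erase b else er (ad D) Z z' := by
    intro z'
    split_ifs with hz
    · ext y
      rw [mem_erase, mem_er, mem_er]
      constructor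
      · intro hy
        refine ⟨?_, fun a' ha' => hsub _ (hy a' ha')⟩
        obtain ⟨z, hz, hzz⟩ := hz
        have := hy z hzz
        simp only [hZ', if_pos hz] at this
        exact (mem_erase.1 this).1
      · rintro ⟨hy, hy'⟩ a' ha'
        simp only [hZ']
        split_ifs
        · exact mem_erase.2 ⟨hy, hy' a' ha'⟩
        · exact hy' a' ha'
    · ext y
      rw [mem_er, mem_er]
      constructor
      · intro hy a' ha'
        exact hsub _ (hy a' ha')
      · intro hy a' ha'
        simp only [hZ']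
        rw [if_neg (fun h' => hz ⟨a', h', ha'⟩)]
        exact hy a' ha'
  have e3 : ∀ z', ((er (ad D) Z' z').card : ℤ) = (er (ad D) Z z').card -
      (if (b ∈ er (ad D) Z z' ∧ ∃ z ∈ S, ad D z z') then 1 else 0) := by
    intro z'
    rw [e2]
    by_cases hz : ∃ z ∈ S, ad D z z'
    · rw [if_pos hz]
      by_cases hb : b ∈ er (ad D) Z z'
      · rw [if_pos ⟨hb, hz⟩]
        have := card_erase_add_one hb
        zify at this
        linarith
      · rw [if_neg (fun h' => hb h'.1), erase_eq_of_notMem hb]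
        ring
    · rw [if_neg hz, if_neg (fun h' => hz h'.2)]
      ring
  simp only [oc, e1, e3] at hm
  have e4 : ∑ z : V, (if z ∈ S then (1 : ℤ) else 0) = S.card := by
    rw [sum_ite_mem, univ_inter]
    simp
  have e5 : ∑ z' : V, (if (b ∈ er (ad D) Z z' ∧ ∃ z ∈ S, ad D z z') then (1 : ℤ) else 0) =
      (univ.filter fun z' => b ∈ er (ad D) Z z' ∧ ∃ z ∈ S, ad D z z').card := by
    rw [sum_boole]
  simp only [sum_sub_distrib] at hm
  rw [e4, e5] at hm
  have : (S.card : ℤ) ≤
      ((univ.filter fun z' => b ∈ er (ad D) Z z' ∧ ∃ z ∈ S, ad D z z').card : ℤ) := by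
    linarith
  exact_mod_cast this

theorem double_count (P : V → V → Prop) [∀ b y, Decidable (P b y)] :
    ∑ b, ((univ.filter fun y => P b y).card : ℤ) = ∑ y, ((univ.filter fun b => P b y).card : ℤ) := by
  simp only [← sum_boole]
  exact sum_comm

theorem no_minBad [Nonempty V] {D : OGraph V} (hD : MinBad D) : False := by
  obtain ⟨U, Z, h, hmin⟩ := exists_min_adm D
  have hstar := star (bd_sub D) (ad := ad D) h.sub (row_min h hmin) (col_min h hmin)
  set AU := er (ad D) U with hAU
  set AZ := er (ad D) Z with hAZ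
  have hAUZ : ∀ a, AU a ⊆ AZ a := er_mono h.sub
  have hAZZ : ∀ a, AZ a ⊆ Z a := fun a => er_sub (Or.inl rfl)
  have hAUU : ∀ a, AU a ⊆ U a := fun a => er_sub (Or.inl rfl)
  set Y : V → Finset V := fun b => univ.filter fun z => z = b ∨ b ∉ cl D (Z z) with hY
  have mem_Y : ∀ {b z}, z ∈ Y b ↔ (z = b ∨ b ∉ cl D (Z z)) := by
    intro b z
    simp [hY]
  have fact0 : ∀ a, a ∈ AU a := fun a => mem_er.2 fun a' ha' => h.refl a' a ha'
  have fact1 : ∀ z y, y ∈ cl D (AZ z) → ¬ D.arc y z := by
    intro z y hy hyz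
    obtain ⟨x, hx, hxy⟩ := mem_cl.1 hy
    have h1 : x ∈ Z y := mem_er.1 hx y (Or.inr hyz)
    rcases hxy with rfl | hxy
    · exact h.rev z x (hAZZ z hx) hyz
    · exact h.rev y x h1 hxy
  have fact2 : ∀ b y, y ∈ cl D (Y b) → y = b ∨ b ∉ cl D (AZ y) := by
    intro b y hy
    by_cases hyb : y = b
    · exact Or.inl hyb
    · right
      intro hb
      obtain ⟨z, hz, hzy⟩ := mem_cl.1 hy
      rcases mem_Y.1 hz with rfl | hz
      · -- z = b
        rcases hzy with rfl | hzy
        · exact hyb rfl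
        · exact fact1 y z hb hzy
      · apply hz
        obtain ⟨x, hx, hxb⟩ := mem_cl.1 hb
        exact mem_cl.2 ⟨x, mem_er.1 hx z hzy, hxb⟩
  -- the costs of `(AU, Y)`
  have s1 : ∑ b, bd D (Y b) ≤ ∑ y, (((cl D (Z y)).card : ℤ) - (cl D (AZ y)).card) := by
    have t1 : ∀ b, bd D (Y b) ≤
        ((univ.filter fun y => b ∈ cl D (Z y) ∧ b ∉ cl D (AZ y)).card : ℤ) := by
      intro b
      rw [bd_eq]
      exact_mod_cast card_le_card (by
        intro y hy
        obtain ⟨hy1, hy2⟩ := mem_sdiff.1 hy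
        rw [mem_Y, not_or, not_not] at hy2
        refine mem_filter.2 ⟨mem_univ _, hy2.2, ?_⟩
        rcases fact2 b y hy1 with h1 | h1
        · exact absurd h1 hy2.1
        · exact h1)
    refine (sum_le_sum fun b _ => t1 b).trans ?_
    rw [double_count (fun b y => b ∈ cl D (Z y) ∧ b ∉ cl D (AZ y))]
    apply le_of_eq
    apply sum_congr rfl
    intro y _
    have t2 : (univ.filter fun b => b ∈ cl D (Z y) ∧ b ∉ cl D (AZ y)) =
        cl D (Z y) \ cl D (AZ y) := by
      ext b
      simp
    rw [t2, card_sdiff_of_subset (cl_mono (hAZZ y)),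
      Nat.cast_sub (card_le_card (cl_mono (hAZZ y)))]
  have s2 : ∑ a, bd D (AU a) + ∑ b, bd D (Y b) ≤ oc D U Z := by
    simp only [oc, bd, sum_sub_distrib] at hstar s1 ⊢
    simp only [← hAZ] at hstar s1 ⊢
    linarith
  -- the new pair
  set U' : V → Finset V := fun a => cl D (AU a) with hU'
  set Z' : V → Finset V := fun z => univ.filter fun b => z = b ∨ z ∉ cl D (Y b) with hZ'
  have mem_Z' : ∀ {z b}, b ∈ Z' z ↔ (z = b ∨ z ∉ cl D (Y b)) := by
    intro z b
    simp [hZ']
  have hadm : Adm D U' Z' := by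
    refine ⟨?_, ?_, ?_⟩
    · intro a b hb
      rw [mem_Z']
      by_cases hab : a = b
      · exact Or.inl hab
      · right
        intro ha
        rcases fact2 b a ha with h1 | h1
        · exact hab h1
        · exact h1 (cl_mono (hAUZ a) hb)
    · intro a b hab
      exact mem_cl.2 ⟨a, fact0 a, hab⟩
    · intro z y hy hyz
      rcases mem_Z'.1 hy with rfl | h1
      · exact D.loopless _ hyz
      · exact h1 (mem_cl.2 ⟨y, mem_Y.2 (Or.inl rfl), Or.inr hyz⟩)
  have s3 : oc D U' Z' ≤ ∑ a, bd D (cl D (AU a)) + ∑ b, bd D (cl D (Y b)) := by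
    have t0 : ∀ z, er (ad D) Z' z ⊆ Z' z := fun z => er_sub (Or.inl rfl)
    have t1 : ∑ z, (((Z' z).card : ℤ) - (er (ad D) Z' z).card) =
        ∑ z, ((univ.filter fun b => b ∈ Z' z ∧ b ∉ er (ad D) Z' z).card : ℤ) := by
      apply sum_congr rfl
      intro z _
      have t2 : (univ.filter fun b => b ∈ Z' z ∧ b ∉ er (ad D) Z' z) =
          Z' z \ er (ad D) Z' z := by
        ext b
        simp
      rw [t2, card_sdiff_of_subset (t0 z), Nat.cast_sub (card_le_card (t0 z))]
    rw [oc, t1, ← double_count (fun b z => b ∈ Z' z ∧ b ∉ er (ad D) Z' z)]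
    apply add_le_add (le_refl _)
    apply sum_le_sum
    intro b _
    rw [bd_eq]
    exact_mod_cast card_le_card (by
      intro z hz
      obtain ⟨-, hz1, hz2⟩ := mem_filter.1 hz
      rw [mem_er] at hz2
      push Not at hz2
      obtain ⟨z', hz', hz''⟩ := hz2
      have hz3 := hz''
      rw [mem_Z', not_or, not_not] at hz3
      rw [mem_sdiff]
      refine ⟨mem_cl.2 ⟨z', hz3.2, hz'⟩, ?_⟩
      rcases mem_Z'.1 hz1 with rfl | h1
      · exact absurd (hadm.sub z' (hadm.refl z' z hz')) hz''
      · exact h1)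
  have s4 := hmin U' Z' hadm
  -- (G)
  have hG : ∀ X, bd D (cl D X) ≤ bd D X := by
    intro X
    by_cases hX : cl D X = X
    · rw [hX]
    · exact (G hD X hX).le
  have s5 : ∑ b, bd D (cl D (Y b)) ≤ ∑ b, bd D (Y b) := sum_le_sum fun b _ => hG _
  have hclosed : ∀ a, cl D (AU a) = AU a := by
    by_contra hcon
    push Not at hcon
    obtain ⟨a, ha⟩ := hcon
    have s6 : ∑ a, bd D (cl D (AU a)) < ∑ a, bd D (AU a) :=
      sum_lt_sum (fun a _ => hG _) ⟨a, mem_univ a, G hD _ ha⟩
    linarith
  -- a smallest nonempty closed set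
  have hne : (univ.filter fun C : Finset V => C.Nonempty ∧ cl D C = C).Nonempty := by
    refine ⟨univ, mem_filter.2 ⟨mem_univ _, univ_nonempty, ?_⟩⟩
    exact Subset.antisymm (subset_univ _) (subset_cl D _)
  obtain ⟨C, hC, hCmin⟩ := exists_min_image _ Finset.card hne
  obtain ⟨-, ⟨a, ha⟩, hCcl⟩ := mem_filter.1 hC
  obtain ⟨b, hab⟩ : ∃ b, D.arc a b := by
    have h1 := hD.1 a
    have h2 := bd_nonneg D (cl D {a})
    have h3 : 0 < bd D {a} := lt_of_le_of_lt h2 h1
    rw [bd_singleton] at h3
    have h4 : 0 < (N1 D a).card := by exact_mod_cast h3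
    obtain ⟨b, hb⟩ := card_pos.1 h4
    exact ⟨b, mem_N1.1 hb⟩
  have hbC : b ∈ C := by
    rw [← hCcl]
    exact mem_cl.2 ⟨a, ha, Or.inr hab⟩
  have hcl : cl D (AU b ∩ C) = AU b ∩ C := by
    apply Subset.antisymm _ (subset_cl D _)
    apply subset_inter
    · have := cl_mono (D := D) (inter_subset_left (s₁ := AU b) (s₂ := C))
      rwa [hclosed b] at this
    · have := cl_mono (D := D) (inter_subset_right (s₁ := AU b) (s₂ := C))
      rwa [hCcl] at this
  have hlt : (AU b ∩ C).card < C.card := by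
    apply card_lt_card
    rw [ssubset_iff_of_subset inter_subset_right]
    refine ⟨a, ha, fun h' => ?_⟩
    exact h.rev b a (h.sub b (hAUU b (mem_inter.1 h').1)) hab
  have := hCmin (AU b ∩ C) (mem_filter.2 ⟨mem_univ _, ⟨b, mem_inter.2 ⟨fact0 b, hbC⟩⟩, hcl⟩)
  omega

/-- **Seymour's second neighbourhood conjecture.** -/
theorem snc [Nonempty V] (D : OGraph V) : ∃ v, (N1 D v).card ≤ (N2 D v).card := by
  by_contra hcon
  push Not at hcon
  obtain ⟨D', hD'⟩ := exists_minBad (bad_of hcon)
  exact no_minBad hD'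

end Vale.Agent.P038.H218
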