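import Vale.Agent.P038.MathlibUsed
import Mathlib.Combinatorics.Hall.Basic

/-!
# P038 (helper218): the lattice inequality for interval pairs of families (411's note 22877, Step 2)
-/

namespace Vale.Agent.P038.H218

open Finset
open scoped Classical

variable {V : Type*} [Fintype V]

/-- `kap c P T = min {c X : P ⊆ X ⊆ T}` (for `P ⊆ T`). -/
noncomputable def kap (c : Finset V → ℤ) (P T : Finset V) : ℤ :=
  (univ : Finset (Finset V)).inf' univ_nonempty (fun X => c (P ∪ X ∩ T))

theorem kap_le {c : Finset V → ℤ} {P T X : Finset V} (h1 : P ⊆ X) (h2 : X ⊆ T) :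
    kap c P T ≤ c X := by
  have h := inf'_le (fun X => c (P ∪ X ∩ T)) (mem_univ X)
  have e : P ∪ X ∩ T = X := by
    rw [inter_eq_left.2 h2, union_eq_right.2 h1]
  simp only [e] at h
  exact h

theorem kap_spec {c : Finset V → ℤ} {P T : Finset V} (h : P ⊆ T) :
    ∃ X, P ⊆ X ∧ X ⊆ T ∧ kap c P T = c X := by
  obtain ⟨X, -, hX⟩ := exists_mem_eq_inf' (univ_nonempty (α := Finset V))
    (fun X => c (P ∪ X ∩ T))
  exact ⟨P ∪ X ∩ T, subset_union_left, union_subset h inter_subset_right, hX⟩

theorem kap_mono {c : Finset V → ℤ} {P P' T : Finset V} (h : P ⊆ P') (h' : P' ⊆ T) :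
    kap c P T ≤ kap c P' T := by
  obtain ⟨X, h1, h2, h3⟩ := kap_spec (c := c) h'
  rw [h3]
  exact kap_le (h.trans h1) h2

theorem kap_sub {c : Finset V → ℤ}
    (hc : ∀ X Y, c (X ∪ Y) + c (X ∩ Y) ≤ c X + c Y) {P P' Q Q' T T' : Finset V}
    (hPT : P ⊆ T) (hQT : Q' ⊆ T') (hT : T' ⊆ T) (hP : P' ⊆ P) (hP' : P' ⊆ Q')
    (hQ : Q ⊆ P ∪ Q') :
    kap c Q T + kap c P' T' ≤ kap c P T + kap c Q' T' := by
  obtain ⟨X, h1, h2, h3⟩ := kap_spec (c := c) hPT
  obtain ⟨Y, g1, g2, g3⟩ := kap_spec (c := c) hQT
  rw [h3, g3]
  refine le_trans (add_le_add (kap_le (X := X ∪ Y) ?_ ?_) (kap_le (X := X ∩ Y) ?_ ?_)) (hc X Y)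
  · exact hQ.trans (union_subset_union h1 g1)
  · exact union_subset h2 (g2.trans hT)
  · exact subset_inter (hP.trans h1) (hP'.trans g1)
  · exact inter_subset_right.trans g2

/-- `er ad Z a = ⋂ {Z a' : ad a' a}`. -/
noncomputable def er (ad : V → V → Prop) (Z : V → Finset V) (a : V) : Finset V :=
  univ.filter fun b => ∀ a', ad a' a → b ∈ Z a'

theorem mem_er {ad : V → V → Prop} {Z : V → Finset V} {a b : V} :
    b ∈ er ad Z a ↔ ∀ a', ad a' a → b ∈ Z a' := by
  simp [er]

theorem er_mono {ad : V → V → Prop} {U Z : V → Finset V} (h : ∀ a, U a ⊆ Z a) (a : V) :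
    er ad U a ⊆ er ad Z a := by
  intro b hb
  rw [mem_er] at hb ⊢
  exact fun a' ha' => h a' (hb a' ha')

theorem er_sub {ad : V → V → Prop} {Z : V → Finset V} {a a' : V} (h : ad a' a) :
    er ad Z a ⊆ Z a' := by
  intro b hb
  rw [mem_er] at hb
  exact hb a' h

theorem row_er {c : Finset V → ℤ} (hc : ∀ X Y, c (X ∪ Y) + c (X ∩ Y) ≤ c X + c Y)
    {ad : V → V → Prop} {U Z : V → Finset V} (hUZ : ∀ a, U a ⊆ Z a)
    (hrow : ∀ a S, U a ⊆ S → S ⊆ Z a → c (U a) ≤ c S) (a : V) (S : Finset V)
    (h1 : er ad U a ⊆ S) (h2 : S ⊆ er ad Z a) : c (er ad U a) ≤ c S := by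
  have key : ∀ F : Finset V, (∀ a' ∈ F, ad a' a) →
      c (S.filter fun b => ∀ a' ∈ F, b ∈ U a') ≤ c S := by
    intro F
    induction F using Finset.induction_on with
    | empty =>
      intro _
      simp
    | insert x F hx ih =>
      intro hF
      have ih' := ih (fun a' ha' => hF a' (mem_insert_of_mem ha'))
      have hxa : ad x a := hF x (mem_insert_self x F)
      set SF := S.filter (fun b => ∀ a' ∈ F, b ∈ U a') with hSF
      have e : (S.filter fun b => ∀ a' ∈ insert x F, b ∈ U a') = SF ∩ U x := by
        ext b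
        simp only [hSF, mem_filter, mem_inter, mem_insert]
        constructor
        · rintro ⟨hb, hb'⟩
          exact ⟨⟨hb, fun a' ha' => hb' a' (Or.inr ha')⟩, hb' x (Or.inl rfl)⟩
        · rintro ⟨⟨hb, hb'⟩, hb''⟩
          refine ⟨hb, ?_⟩
          rintro a' (rfl | ha')
          · exact hb''
          · exact hb' a' ha'
      rw [e]
      have hs := hc SF (U x)
      have hr := hrow x (SF ∪ U x) subset_union_right
        (union_subset ((filter_subset _ _).trans (h2.trans (er_sub hxa))) (hUZ x))
      linarith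
  have hk := key (univ.filter fun a' => ad a' a) (fun a' ha' => (mem_filter.1 ha').2)
  have e : (S.filter fun b => ∀ a' ∈ univ.filter (fun a' => ad a' a), b ∈ U a') = er ad U a := by
    ext b
    simp only [mem_filter, mem_univ, true_and, mem_er]
    constructor
    · rintro ⟨-, hb⟩
      exact hb
    · intro hb
      exact ⟨h1 (mem_er.2 hb), hb⟩
  rwa [e] at hk

/-- The main inequality. -/
theorem star {c : Finset V → ℤ} (hc : ∀ X Y, c (X ∪ Y) + c (X ∩ Y) ≤ c X + c Y)
    {ad : V → V → Prop} {U Z : V → Finset V} (hUZ : ∀ a, U a ⊆ Z a)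
    (hrow : ∀ a S, U a ⊆ S → S ⊆ Z a → c (U a) ≤ c S)
    (hcol : ∀ (b : V) (S : Finset V), (∀ z ∈ S, b ∈ Z z ∧ b ∉ U z) →
      S.card ≤ (univ.filter fun z' => b ∈ er ad Z z' ∧ ∃ z ∈ S, ad z z').card) :
    ∑ z, (c (Z z) - c (U z)) ≤ ∑ z, (c (er ad Z z) - c (er ad U z)) := by
  have key : ∀ W : Finset V,
      ∑ z, (kap c (U z ∪ Z z ∩ W) (Z z) - c (U z)) ≤
        ∑ z, (kap c (er ad U z ∪ er ad Z z ∩ W) (er ad Z z) - c (er ad U z)) := by
    intro W
    induction W using Finset.induction_on with
    | empty =>
      apply le_of_eq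
      have e1 : ∀ z, kap c (U z ∪ Z z ∩ ∅) (Z z) - c (U z) = 0 := by
        intro z
        rw [inter_empty, union_empty, sub_eq_zero]
        apply le_antisymm (kap_le (Subset.refl _) (hUZ z))
        obtain ⟨X, h1, h2, h3⟩ := kap_spec (c := c) (hUZ z)
        rw [h3]
        exact hrow z X h1 h2
      have e2 : ∀ z, kap c (er ad U z ∪ er ad Z z ∩ ∅) (er ad Z z) - c (er ad U z) = 0 := by
        intro z
        rw [inter_empty, union_empty, sub_eq_zero]
        apply le_antisymm (kap_le (Subset.refl _) (er_mono hUZ z))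
        obtain ⟨X, h1, h2, h3⟩ := kap_spec (c := c) (er_mono (ad := ad) hUZ z)
        rw [h3]
        exact row_er hc hUZ hrow z X h1 h2
      rw [sum_eq_zero (fun z _ => e1 z), sum_eq_zero (fun z _ => e2 z)]
    | insert x W hx ih =>
      -- increments
      set β : V → ℤ := fun z => kap c (U z ∪ Z z ∩ insert x W) (Z z) -
        kap c (U z ∪ Z z ∩ W) (Z z) with hβ
      set β' : V → ℤ := fun z => kap c (er ad U z ∪ er ad Z z ∩ insert x W) (er ad Z z) -
        kap c (er ad U z ∪ er ad Z z ∩ W) (er ad Z z) with hβ'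
      have hβ'0 : ∀ z, 0 ≤ β' z := by
        intro z
        rw [hβ']
        have := kap_mono (c := c)
          (P := er ad U z ∪ er ad Z z ∩ W) (P' := er ad U z ∪ er ad Z z ∩ insert x W)
          (T := er ad Z z)
          (union_subset_union (Subset.refl _) (inter_subset_inter (Subset.refl _)
            (subset_insert x W)))
          (union_subset (er_mono hUZ z) inter_subset_left)
        simp only
        linarith
      have hβ0 : ∀ z, ¬ (x ∈ Z z ∧ x ∉ U z) → β z = 0 := by
        intro z hz
        have e : U z ∪ Z z ∩ insert x W = U z ∪ Z z ∩ W := by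
          ext y
          simp only [mem_union, mem_inter, mem_insert]
          constructor
          · rintro (h | ⟨h1, rfl | h2⟩)
            · exact Or.inl h
            · left
              by_contra h3
              exact hz ⟨h1, h3⟩
            · exact Or.inr ⟨h1, h2⟩
          · rintro (h | ⟨h1, h2⟩)
            · exact Or.inl h
            · exact Or.inr ⟨h1, Or.inr h2⟩
        simp only [hβ, e, sub_self]
      have hββ' : ∀ z z', ad z z' → x ∈ er ad Z z' → β z ≤ β' z' := by
        intro z z' hzz hx'
        have := kap_sub hc (P := U z ∪ Z z ∩ W) (P' := er ad U z' ∪ er ad Z z' ∩ W)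
          (Q := U z ∪ Z z ∩ insert x W) (Q' := er ad U z' ∪ er ad Z z' ∩ insert x W)
          (T := Z z) (T' := er ad Z z')
          (union_subset (hUZ z) inter_subset_left)
          (union_subset (er_mono hUZ z') inter_subset_left)
          (er_sub hzz)
          (union_subset_union (er_sub hzz) (inter_subset_inter (er_sub hzz) (Subset.refl _)))
          (union_subset_union (Subset.refl _) (inter_subset_inter (Subset.refl _)
            (subset_insert x W)))
          (by
            intro y
            simp only [mem_union, mem_inter, mem_insert]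
            rintro (h | ⟨h1, rfl | h2⟩)
            · exact Or.inl (Or.inl h)
            · exact Or.inr (Or.inr ⟨hx', Or.inl rfl⟩)
            · exact Or.inl (Or.inr ⟨h1, h2⟩))
        simp only [hβ, hβ']
        linarith
      -- Hall
      set G : Finset V := univ.filter fun z => x ∈ Z z ∧ x ∉ U z with hG
      obtain ⟨φ, hφinj, hφ⟩ := (Finset.all_card_le_biUnion_card_iff_exists_injective
        (fun z : G => univ.filter fun z' => x ∈ er ad Z z' ∧ ad z.1 z')).1 (by
          intro s
          have h1 := hcol x (s.map (Function.Embedding.subtype _)) (by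
            intro z hz
            simp only [mem_map, Function.Embedding.subtype_apply] at hz
            obtain ⟨y, -, rfl⟩ := hz
            exact (mem_filter.1 y.2).2)
          rw [card_map] at h1
          refine h1.trans (card_le_card ?_)
          intro z' hz'
          simp only [mem_filter, mem_univ, true_and, mem_map,
            Function.Embedding.subtype_apply] at hz'
          obtain ⟨h2, z, ⟨y, hy, rfl⟩, h3⟩ := hz'
          simp only [mem_biUnion, mem_filter, mem_univ, true_and]
          exact ⟨y, hy, h2, h3⟩)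
      have hsum : ∑ z, β z ≤ ∑ z, β' z := by
        have s1 : ∑ z, β z = ∑ z : G, β z.1 := by
          rw [Finset.sum_coe_sort G β]
          symm
          apply sum_subset (subset_univ G)
          intro z _ hz
          apply hβ0
          intro h
          exact hz (mem_filter.2 ⟨mem_univ z, h⟩)
        have s2 : ∑ z : G, β z.1 ≤ ∑ z : G, β' (φ z) := by
          apply sum_le_sum
          intro z _
          have := (mem_filter.1 (hφ z)).2
          exact hββ' z.1 (φ z) this.2 this.1
        have s3 : ∑ z : G, β' (φ z) = ∑ z ∈ univ.image φ, β' z := by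
          rw [sum_image]
          intro a _ b _ h
          exact hφinj h
        have s4 : ∑ z ∈ univ.image φ, β' z ≤ ∑ z, β' z :=
          sum_le_sum_of_subset_of_nonneg (subset_univ _) (fun z _ _ => hβ'0 z)
        rw [s1]
        rw [s3] at s2
        exact s2.trans s4
      have t1 : ∑ z, (kap c (U z ∪ Z z ∩ insert x W) (Z z) - c (U z)) =
          ∑ z, (kap c (U z ∪ Z z ∩ W) (Z z) - c (U z)) + ∑ z, β z := by
        rw [← sum_add_distrib]
        apply sum_congr rfl
        intro z _
        simp only [hβ]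
        ring
      have t2 : ∑ z, (kap c (er ad U z ∪ er ad Z z ∩ insert x W) (er ad Z z) -
            c (er ad U z)) =
          ∑ z, (kap c (er ad U z ∪ er ad Z z ∩ W) (er ad Z z) - c (er ad U z)) +
            ∑ z, β' z := by
        rw [← sum_add_distrib]
        apply sum_congr rfl
        intro z _
        simp only [hβ']
        ring
      rw [t1, t2]
      exact add_le_add ih hsum
  have := key univ
  have e1 : ∀ z, kap c (U z ∪ Z z ∩ univ) (Z z) = c (Z z) := by
    intro z
    rw [inter_univ, union_eq_right.2 (hUZ z)]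
    apply le_antisymm (kap_le (Subset.refl _) (Subset.refl _))
    obtain ⟨X, h1, h2, h3⟩ := kap_spec (c := c) (Subset.refl (Z z))
    rw [h3, Subset.antisymm h1 h2]
  have e2 : ∀ z, kap c (er ad U z ∪ er ad Z z ∩ univ) (er ad Z z) = c (er ad Z z) := by
    intro z
    rw [inter_univ, union_eq_right.2 (er_mono hUZ z)]
    apply le_antisymm (kap_le (Subset.refl _) (Subset.refl _))
    obtain ⟨X, h1, h2, h3⟩ := kap_spec (c := c) (Subset.refl (er ad Z z))
    rw [h3, Subset.antisymm h1 h2]
  simpa only [e1, e2] using this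

end Vale.Agent.P038.H218
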